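import Vale.Agent.P299.H723.D.Defs

/-!
# P299, D2: interface between the pieces of the proof of `D2Statement`

`X` compact connected Kähler with `Ric ≥ 0`, `π : M → X` a connected covering with the pull back
metric `pullM π w`. A positive solution `G` of `Δ G = μ G` on `M` is used instead of Busemann
functions.
-/

open scoped Manifold ContDiff ComplexOrder Topology
open Vale.Agent.P272.K Vale.Agent.P272.K.AMP Vale.Agent.P278.H837 Vale.Agent.P299.D Metric Filter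

noncomputable section

namespace Vale.Agent.P299.D2

section loc
variable {n : ℕ}

/-- `Δ_g u = g^{i j̄} u_{i j̄}` on `ℂⁿ` (so `lapE w u e z = lapG (w e) (u ∘ e.symm) z` by `rfl`) -/
def lapG (g : Cm n → Matrix (Fin n) (Fin n) ℂ) (u : Cm n → ℝ) (z : Cm n) : ℝ :=
  ((g z)⁻¹ * cHess u z).trace.re

/-- the matrix `u_i v_{j̄}` -/
def ddG (u v : Cm n → ℝ) (z : Cm n) : Matrix (Fin n) (Fin n) ℂ :=
  Matrix.of fun i j => dz i (fun y => ((u y : ℝ) : ℂ)) z * dzb j (fun y => ((v y : ℝ) : ℂ)) z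

/-- `Re ⟨∂u, ∂v⟩_g = Re g^{i j̄} u_i v_{j̄}` on `ℂⁿ` -/
def gradG (g : Cm n → Matrix (Fin n) (Fin n) ℂ) (u v : Cm n → ℝ) (z : Cm n) : ℝ :=
  ((g z)⁻¹ * ddG u v z).trace.re

/-- `g` is a smooth Kähler metric on the set `s ⊆ ℂⁿ` -/
structure KahOn (g : Cm n → Matrix (Fin n) (Fin n) ℂ) (s : Set (Cm n)) : Prop where
  smooth : ∀ z ∈ s, ∀ i j, ContDiffAt ℝ ∞ (fun y => g y i j) z
  posDef : ∀ z ∈ s, (g z).PosDef
  closed : ∀ z ∈ s, ∀ i j k, dz k (fun y => g y i j) z = dz i (fun y => g y k j) z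

/-- `Ric(g) ≥ 0` on `s` -/
def RicOn (g : Cm n → Matrix (Fin n) (Fin n) ℂ) (s : Set (Cm n)) : Prop :=
  ∀ z ∈ s, (-cHess (fun y => Real.log (g y).det.re) z).PosSemidef

end loc

lemma lapE_eq {n : ℕ} {X : Type*} [TopologicalSpace X]
    (w : Chart n X → Cm n → Matrix (Fin n) (Fin n) ℂ) (u : X → ℝ) (e : Chart n X) (z : Cm n) :
    lapE w u e z = lapG (w e) (fun y => u (e.symm y)) z := rfl

lemma gradE_eq {n : ℕ} {X : Type*} [TopologicalSpace X]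
    (w : Chart n X → Cm n → Matrix (Fin n) (Fin n) ℂ) (u v : X → ℝ) (e : Chart n X) (z : Cm n) :
    gradE w u v e z = gradG (w e) (fun y => u (e.symm y)) (fun y => v (e.symm y)) z := rfl

/-- **(b2) interior Schauder estimate** for `Δ_g u = μ u` (helper723). -/
def SchauderStatement : Prop :=
  ∀ (n : ℕ) (g : Cm n → Matrix (Fin n) (Fin n) ℂ) (p : Cm n) (R : ℝ), 0 < R →
    KahOn g (closedBall p R) → ∀ μ : ℝ, ∃ C : ℝ, 0 ≤ C ∧ ∀ (u : Cm n → ℝ) (K : ℝ),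
      (∀ z ∈ ball p R, ContDiffAt ℝ ∞ u z) → (∀ z ∈ ball p R, |u z| ≤ K) →
      (∀ z ∈ ball p R, lapG g u z = μ * u z) →
      ∀ z ∈ closedBall p (R / 2), ‖fderiv ℝ u z‖ ≤ C * K ∧ ‖fderiv ℝ (fderiv ℝ u) z‖ ≤ C * K ∧
        ∀ z' ∈ closedBall p (R / 2),
          ‖fderiv ℝ (fderiv ℝ u) z - fderiv ℝ (fderiv ℝ u) z'‖ ≤ C * K * ‖z - z'‖ ^ (1 / 2 : ℝ)

/-- **(c1) Bochner inequality** for `v = log u`, `Δ_g u = μ u`, `Ric ≥ 0`, `Q = |∂v|²`:
`Δ Q + 2 Re ⟨∂v, ∂Q⟩ ≥ (μ - Q)² / n + (Δ v = μ - Q)`, and rigidity. -/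
def BochnerStatement : Prop :=
  ∀ (n : ℕ) (g : Cm n → Matrix (Fin n) (Fin n) ℂ) (U : Set (Cm n)), IsOpen U → KahOn g U →
    RicOn g U → ∀ (μ : ℝ) (u : Cm n → ℝ), (∀ z ∈ U, ContDiffAt ℝ ∞ u z) → (∀ z ∈ U, 0 < u z) →
    (∀ z ∈ U, lapG g u z = μ * u z) →
    let v : Cm n → ℝ := fun z => Real.log (u z)
    let Q : Cm n → ℝ := gradG g v v
    (∀ z ∈ U, ContDiffAt ℝ ∞ Q z) ∧ (∀ z ∈ U, 0 ≤ Q z) ∧ (∀ z ∈ U, lapG g v z = μ - Q z) ∧
    (∀ z ∈ U, (μ - Q z) ^ 2 ≤ n * (lapG g Q z + 2 * gradG g v Q z)) ∧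
    -- rigidity: if `Q = μ` on `U` then `∂v` is parallel
    ((∀ z ∈ U, Q z = μ) → (∀ z ∈ U, cHess v z = 0) ∧
      ∀ z ∈ U, ∀ i k, dz k (fun y => dz i (fun x => ((v x : ℝ) : ℂ)) y) z =
        ∑ a, ∑ b, dz k (fun y => g y i a) z * (g z)⁻¹ a b * dz b (fun x => ((v x : ℝ) : ℂ)) z)

/-- **(b1) local gradient estimate** (Cheng–Yau): uses only `BochnerStatement` and a cut-off. -/
def LocalGradStatement : Prop :=
  ∀ (n : ℕ) (g : Cm n → Matrix (Fin n) (Fin n) ℂ) (p : Cm n) (R : ℝ), 0 < R →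
    KahOn g (closedBall p R) → RicOn g (closedBall p R) → ∀ μ : ℝ, ∃ C : ℝ, ∀ u : Cm n → ℝ,
      (∀ z ∈ ball p R, ContDiffAt ℝ ∞ u z) → (∀ z ∈ ball p R, 0 < u z) →
      (∀ z ∈ ball p R, lapG g u z = μ * u z) →
      ∀ z ∈ closedBall p (R / 2), ‖fderiv ℝ (fun y => Real.log (u y)) z‖ ≤ C

/-- **(a1) bounded solutions on the covering**: `(μ - Δ) u = f` for one (large) `μ`. -/
def SolveStatement : Prop :=
  ∀ (n : ℕ) (X : Type) [TopologicalSpace X] [T2Space X] [CompactSpace X] [ConnectedSpace X]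
    [ChartedSpace (Cm n) X] [IsManifold 𝓘(ℂ, Cm n) ω X] (w : FormM n X), IsKahler w →
  ∀ (M : Type) [TopologicalSpace M] [T2Space M] [ConnectedSpace M] [SecondCountableTopology M]
    [ChartedSpace (Cm n) M] [IsManifold 𝓘(ℂ, Cm n) ω M] (π : M → X), IsCoveringMap π →
    Function.Surjective π → IsLocalDiffeomorph 𝓘(ℂ, Cm n) 𝓘(ℂ, Cm n) ω π →
    ∃ μ : ℝ, 0 < μ ∧ ∀ f : M → ℝ, SmoothFn (n := n) f →
      (∃ C : ℝ, ∀ m, |f m| ≤ C ∧ gradX (n := n) (pullM π w) f f m ≤ C) →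
      ∃ u : M → ℝ, SmoothFn (n := n) u ∧ (∃ C : ℝ, ∀ m, |u m| ≤ C) ∧
        ∀ m, μ * u m - lapX (n := n) (pullM π w) u m = f m

/-- **(a2) maximum principle** on the covering, and the strong maximum principle. -/
def MaxStatement : Prop :=
  ∀ (n : ℕ) (X : Type) [TopologicalSpace X] [T2Space X] [CompactSpace X] [ConnectedSpace X]
    [ChartedSpace (Cm n) X] [IsManifold 𝓘(ℂ, Cm n) ω X] (w : FormM n X), IsKahler w →
  ∀ (M : Type) [TopologicalSpace M] [T2Space M] [ConnectedSpace M] [SecondCountableTopology M]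
    [ChartedSpace (Cm n) M] [IsManifold 𝓘(ℂ, Cm n) ω M] (π : M → X), IsCoveringMap π →
    Function.Surjective π → IsLocalDiffeomorph 𝓘(ℂ, Cm n) 𝓘(ℂ, Cm n) ω π →
    ∀ μ : ℝ, 0 < μ → ∀ u : M → ℝ, SmoothFn (n := n) u → (∃ C : ℝ, ∀ m, -C ≤ u m) →
      (∀ m, 0 ≤ μ * u m - lapX (n := n) (pullM π w) u m) →
      (∀ m, 0 ≤ u m) ∧ ((∃ m, u m = 0) → ∀ m, u m = 0)

/-- **(b) global gradient bound** for positive solutions on the covering. -/
def GradStatement : Prop :=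
  ∀ (n : ℕ) (X : Type) [TopologicalSpace X] [T2Space X] [CompactSpace X] [ConnectedSpace X]
    [ChartedSpace (Cm n) X] [IsManifold 𝓘(ℂ, Cm n) ω X] (w : FormM n X), IsKahler w →
    RicNonneg w →
  ∀ (M : Type) [TopologicalSpace M] [T2Space M] [ConnectedSpace M] [SecondCountableTopology M]
    [ChartedSpace (Cm n) M] [IsManifold 𝓘(ℂ, Cm n) ω M] (π : M → X), IsCoveringMap π →
    Function.Surjective π → IsLocalDiffeomorph 𝓘(ℂ, Cm n) 𝓘(ℂ, Cm n) ω π →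
    ∀ μ : ℝ, 0 < μ → ∃ C : ℝ, ∀ u : M → ℝ, SmoothFn (n := n) u → (∀ m, 0 < u m) →
      (∀ m, lapX (n := n) (pullM π w) u m = μ * u m) →
      ∀ m, gradX (n := n) (pullM π w) (fun x => Real.log (u x)) (fun x => Real.log (u x)) m ≤ C

/-- **(b3) compactness** of positive solutions on the Kähler manifold `(M, g)`, `Ric ≥ 0`. -/
def CptStatement : Prop :=
  ∀ (n : ℕ) (M : Type) [TopologicalSpace M] [T2Space M] [ConnectedSpace M]
    [SecondCountableTopology M] [ChartedSpace (Cm n) M] [IsManifold 𝓘(ℂ, Cm n) ω M]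
    (g : FormM n M), IsKahler g → RicNonneg g → ∀ μ : ℝ, 0 < μ →
    ∀ (Ω : ℕ → Set M), (∀ j, IsOpen (Ω j)) → (∀ K : Set M, IsCompact K → ∀ᶠ j in atTop, K ⊆ Ω j) →
    ∀ (u : ℕ → M → ℝ) (o : M), (∀ j, ∀ m, 0 < u j m) → (∀ j, SmoothFn (n := n) (u j)) →
      (∀ j, ∀ m ∈ Ω j, lapX (n := n) g (u j) m = μ * u j m) → (∀ j, u j o = 1) →
      ∃ (φ : ℕ → ℕ) (G : M → ℝ), StrictMono φ ∧ SmoothFn (n := n) G ∧ (∀ m, 0 < G m) ∧
        (∀ m, lapX (n := n) g G m = μ * G m) ∧ TendstoLocallyUniformly (fun j => u (φ j)) G atTop ∧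
        TendstoLocallyUniformly (fun j m => gradX (n := n) g (fun x => Real.log (u (φ j) x))
          (fun x => Real.log (u (φ j) x)) m)
          (fun m => gradX (n := n) g (fun x => Real.log (G x)) (fun x => Real.log (G x)) m) atTop

end Vale.Agent.P299.D2
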