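import Vale.Agent.P272.K.IE.Ball
import Vale.Agent.P272.K.R.Final

/-!
# Interior Schauder estimate for `A·D²u + b·Du + c u = 0`, part 1: the unit ball
-/

set_option maxSynthPendingDepth 3

open scoped ContDiff Topology
open Filter Set Metric

noncomputable section

namespace Vale.Agent.P299.D2

open Vale.Agent.P272.K.LIN Vale.Agent.P272.K.IE
open Vale.Agent.P272.K.R (Bil D2 CCE UH)

/-- data with normalised bounds on `s` -/
structure Dat (E : Type) [NormedAddCommGroup E] [NormedSpace ℝ E] (s : Set E) (β a : ℝ) where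
  A : E → Bil E →L[ℝ] ℝ
  b : E → (E →L[ℝ] ℝ) →L[ℝ] ℝ
  c : E → ℝ
  w : E → ℝ
  hA : HO s β A a a
  hb : HO s β b a a
  hc : HO s β c a a
  hw : HO s β w 1 1
  hw1 : HO s β (fderiv ℝ w) 1 1
  hw2 : ∀ x ∈ s, ContDiffAt ℝ 2 w x
  eq : ∀ x ∈ s, A x (D2 w x) + b x (fderiv ℝ w x) + c x * w x = 0

variable {E : Type} [NormedAddCommGroup E] [NormedSpace ℝ E]

omit [NormedSpace ℝ E] in
lemma uh_of_HO {F : Type*} [NormedAddCommGroup F] [NormedSpace ℝ F] {ι : Type*} {s : Set E}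
    {β A B : ℝ} {f : ι → E → F} (h : ∀ i, HO s β (f i) A B) : UH β s f :=
  UH.mk' (fun i x hx => (h i).sup x hx) fun i x hx y hy => (h i).hol x hx y hy

variable [FiniteDimensional ℝ E]

/-- uniform bound for `A (D² (η w))` -/
theorem exists_unif {β a : ℝ} (hβ0 : 0 < β) (hβ1 : β < 1) :
    ∃ C : ℝ, 0 ≤ C ∧ ∀ i : Dat E (ball (0:E) (3/4)) β a,
      Vale.Agent.P272.K.R.Hol β C (fun x => i.A x (D2 (fun y => cut E y * i.w y) x))
        (ball (0:E) (3/4)) := by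
  set s : Set E := ball (0:E) (3/4) with hs
  set η : E → ℝ := (fun x => cut E x) with hη
  have hηc : ContDiff ℝ ∞ η := cut_contDiff
  have hη3 : ContDiff ℝ 3 η := by exact_mod_cast contDiff_infty.1 hηc 3
  have hη2 : ContDiff ℝ 2 η := hη3.of_le (by norm_num)
  have hη3' : ContDiff ℝ 2 (fderiv ℝ η) := hη3.fderiv_right (m := 2) (by norm_num)
  have u0 : UH β s (fun _ : Dat E s β a => η) :=
    Vale.Agent.P272.K.R.uh_of_contDiff hβ0 hβ1.le (hη2.of_le (by norm_num)) 0 (3/4)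
  have u1 : UH β s (fun _ : Dat E s β a => fderiv ℝ η) :=
    Vale.Agent.P272.K.R.uh_of_contDiff hβ0 hβ1.le (hη3'.of_le (by norm_num)) 0 (3/4)
  have u2 : UH β s (fun _ : Dat E s β a => D2 η) :=
    Vale.Agent.P272.K.R.uh_of_contDiff hβ0 hβ1.le (hη3'.fderiv_right (m := 1) (by norm_num)) 0 (3/4)
  have uA : UH β s (fun i : Dat E s β a => i.A) := uh_of_HO fun i => i.hA
  have ub : UH β s (fun i : Dat E s β a => i.b) := uh_of_HO fun i => i.hb
  have uc : UH β s (fun i : Dat E s β a => i.c) := uh_of_HO fun i => i.hc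
  have uw : UH β s (fun i : Dat E s β a => i.w) := uh_of_HO fun i => i.hw
  have uw1 : UH β s (fun i : Dat E s β a => fderiv ℝ i.w) := uh_of_HO fun i => i.hw1
  have e1 := ub.bilin (ContinuousLinearMap.id ℝ ((E →L[ℝ] ℝ) →L[ℝ] ℝ)) uw1
  have e2 := uc.bilin (ContinuousLinearMap.mul ℝ ℝ) uw
  have e3 := u0.bilin (ContinuousLinearMap.mul ℝ ℝ) (e1.add e2).neg
  have e4 := uA.bilin (ContinuousLinearMap.id ℝ (Bil E →L[ℝ] ℝ))
    (u1.bilin (ContinuousLinearMap.smulRightL ℝ E (E →L[ℝ] ℝ)) uw1)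
  have e5 := uA.bilin (ContinuousLinearMap.id ℝ (Bil E →L[ℝ] ℝ))
    (uw.bilin (ContinuousLinearMap.lsmul ℝ ℝ : ℝ →L[ℝ] Bil E →L[ℝ] Bil E) u2)
  have e6 := uA.bilin (ContinuousLinearMap.id ℝ (Bil E →L[ℝ] ℝ))
    (uw1.bilin (ContinuousLinearMap.smulRightL ℝ E (E →L[ℝ] ℝ)) u1)
  obtain ⟨C, hC, h⟩ := (e3.add e4).add (e5.add e6)
  refine ⟨C, hC, fun i => (h i).1.congr fun x hx => ?_⟩
  rw [Vale.Agent.P272.K.R.D2_mul hη2.contDiffAt (i.hw2 x hx)]
  have heq := i.eq x hx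
  have h1 : i.A x (D2 i.w x) = -(i.b x (fderiv ℝ i.w x) + i.c x * i.w x) := by linarith
  simp only [map_add, map_smul, smul_eq_mul, h1]
  simp

/-- The estimate on the unit ball with interpolation parameter. -/
theorem unit_est {β : ℝ} (hβ0 : 0 < β) (hβ1 : β < 1) {C₀ : ℝ} (hC₀ : 0 ≤ C₀)
    {B : Bil E →L[ℝ] ℝ} (hB : CCE β C₀ B) {ε M₁ a : ℝ} (hε : 0 ≤ ε) (hM₁ : 0 ≤ M₁)
    (hsm : C₀ * (ε + M₁ * (3 * (3 / 4)) ^ β) ≤ 1 / 2) :
    ∀ θ : ℝ, 0 < θ → ∃ C : ℝ, 0 ≤ C ∧ ∀ (A : E → Bil E →L[ℝ] ℝ) (b : E → (E →L[ℝ] ℝ) →L[ℝ] ℝ)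
      (c u : E → ℝ) (K S : ℝ), 0 < K → 0 ≤ S →
      (∀ x ∈ ball (0:E) (3/4), ‖A x - B‖ ≤ ε) →
      Vale.Agent.P272.K.R.Hol β M₁ A (ball (0:E) (3/4)) →
      HO (ball (0:E) (3/4)) β A a a → HO (ball (0:E) (3/4)) β b a a →
      HO (ball (0:E) (3/4)) β c a a →
      (∀ x ∈ ball (0:E) 1, ContDiffAt ℝ 3 u x) → (∀ x ∈ ball (0:E) 1, |u x| ≤ K) →
      (∀ x ∈ ball (0:E) 1, A x (D2 u x) + b x (fderiv ℝ u x) + c x * u x = 0) →
      (∀ x ∈ ball (0:E) 1, ‖D2 u x‖ ≤ S) →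
      HO (ball (0:E) (1/2)) β (D2 u) (θ * S + C * K) (θ * S + C * K) := by
  obtain ⟨C₁, hC₁, hunif⟩ := exists_unif (E := E) (a := a) hβ0 hβ1
  intro θ hθ
  -- choice of `h`
  obtain ⟨h, hh, hh', hhθ⟩ : ∃ h : ℝ, 0 < h ∧ h ≤ 1/4 ∧ 6 * C₀ * C₁ * (4 * h ^ (1 - β)) ≤ θ := by
    have hq : 0 < θ / (24 * C₀ * C₁ + 1) := by positivity
    refine ⟨min (1/4) ((θ / (24 * C₀ * C₁ + 1)) ^ (1 / (1 - β))),
      lt_min (by norm_num) (Real.rpow_pos_of_pos hq _), min_le_left _ _, ?_⟩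
    have h3 : (min (1/4) ((θ / (24 * C₀ * C₁ + 1)) ^ (1 / (1 - β)))) ^ (1 - β)
        ≤ θ / (24 * C₀ * C₁ + 1) := by
      calc _ ≤ ((θ / (24 * C₀ * C₁ + 1)) ^ (1 / (1 - β))) ^ (1 - β) := by
            refine Real.rpow_le_rpow (le_min (by norm_num) (Real.rpow_nonneg hq.le _))
              (min_le_right _ _) (by linarith)
        _ = _ := by
          rw [← Real.rpow_mul hq.le, one_div_mul_cancel (by linarith), Real.rpow_one]
    calc 6 * C₀ * C₁ * (4 * _) ≤ 6 * C₀ * C₁ * (4 * (θ / (24 * C₀ * C₁ + 1))) := by gcongr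
      _ = θ * (24 * C₀ * C₁ / (24 * C₀ * C₁ + 1)) := by ring
      _ ≤ θ * 1 := by
        gcongr
        rw [div_le_one (by positivity)]; linarith
      _ = θ := mul_one _
  refine ⟨6 * C₀ * C₁ * (2 + 2 / h + 4 / h * h ^ (-β)), by
    have := Real.rpow_nonneg hh.le (-β)
    positivity, ?_⟩
  intro A b c u K S hK0 hS0 hAB hAM hA hb hc hu hK heq hS
  have hu2 : ∀ x ∈ ball (0:E) 1, ContDiffAt ℝ 2 u x := fun x hx => (hu x hx).of_le (by norm_num)
  have hG := fderiv_holder hβ0.le hβ1.le hh hh' hu2 hK hS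
  set G₀ : ℝ := 2 * K / h + h * S with hG₀
  set G₁ : ℝ := S * h ^ (1 - β) + 2 * G₀ * h ^ (-β) with hG₁
  have hhp := Real.rpow_nonneg hh.le (-β)
  have hhq := Real.rpow_nonneg hh.le (1 - β)
  have hG00 : 0 ≤ G₀ := by positivity
  have hG10 : 0 ≤ G₁ := by positivity
  set s : Set E := ball (0:E) (3/4) with hs
  have hs1 : s ⊆ ball (0:E) 1 := ball_subset_ball (by norm_num)
  set N : ℝ := 2 * K + G₀ + G₁ with hN
  have hN0 : 0 < N := by positivity
  have hu_lip : ∀ x ∈ s, ∀ y ∈ s, ‖u x - u y‖ ≤ G₀ * ‖x - y‖ := fun x hx y hy =>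
    (convex_ball (0:E) (3/4)).norm_image_sub_le_of_norm_fderiv_le (𝕜 := ℝ)
      (f := u) (C := G₀) (x := y) (y := x)
      (fun z hz => (hu2 z (hs1 hz)).differentiableAt (by norm_num)) (fun z hz => hG.sup z hz) hy hx
  have p1 : HO s β u K (G₀ + 2 * K) :=
    HO.of_lip hβ0.le hβ1.le hG00 hK0.le (fun x hx => hK x (hs1 hx)) hu_lip
  -- the normalised function
  set w : E → ℝ := fun x => N⁻¹ * u x with hw
  have hNi : 0 ≤ N⁻¹ := (inv_pos.2 hN0).le
  have hwd : ∀ x ∈ ball (0:E) 1, fderiv ℝ w x = N⁻¹ • fderiv ℝ u x := fun x hx =>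
    fderiv_const_mul ((hu2 x hx).differentiableAt (by norm_num)) _
  have hwd2 : ∀ x ∈ ball (0:E) 1, D2 w x = N⁻¹ • D2 u x := fun x hx => by
    have h1 : fderiv ℝ w =ᶠ[𝓝 x] fun y => N⁻¹ • fderiv ℝ u y := by
      filter_upwards [isOpen_ball.mem_nhds hx] with y hy using hwd y hy
    rw [D2, h1.fderiv_eq]
    exact fderiv_fun_const_smul
      (((hu2 x hx).fderiv_right (m := 1) (by norm_num)).differentiableAt (by norm_num)) _
  let i : Dat E s β a :=
    { A := A, b := b, c := c, w := w, hA := hA, hb := hb, hc := hc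
      hw := by
        refine (p1.const_mul N⁻¹).mono ?_ ?_ <;> rw [abs_of_nonneg hNi, inv_mul_le_one₀ hN0] <;>
          rw [hN] <;> linarith
      hw1 := by
        refine ⟨fun x hx => ?_, fun x hx y hy => ?_⟩
        · rw [hwd x (hs1 hx), norm_smul, Real.norm_eq_abs, abs_of_nonneg hNi,
            inv_mul_le_one₀ hN0]
          have := hG.sup x hx
          rw [hN]; linarith
        · rw [hwd x (hs1 hx), hwd y (hs1 hy), ← smul_sub, norm_smul, Real.norm_eq_abs,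
            abs_of_nonneg hNi]
          have h1 := hG.hol x hx y hy
          have h2 : 0 ≤ ‖x - y‖ ^ β := Real.rpow_nonneg (norm_nonneg _) _
          calc N⁻¹ * ‖fderiv ℝ u x - fderiv ℝ u y‖ ≤ N⁻¹ * (G₁ * ‖x - y‖ ^ β) := by gcongr
            _ ≤ N⁻¹ * (N * ‖x - y‖ ^ β) := by
              gcongr
              rw [hN]; linarith
            _ = 1 * ‖x - y‖ ^ β := by field_simp
      hw2 := fun x hx => contDiffAt_const.mul (hu2 x (hs1 hx))
      eq := fun x hx => by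
        rw [hwd x (hs1 hx), hwd2 x (hs1 hx)]
        have := heq x (hs1 hx)
        simp only [map_smul, smul_eq_mul]
        have e : N⁻¹ * (A x) (D2 u x) + N⁻¹ * (b x) (fderiv ℝ u x) + c x * (N⁻¹ * u x) =
          N⁻¹ * (A x (D2 u x) + b x (fderiv ℝ u x) + c x * u x) := by ring
        rw [e, this, mul_zero] }
  have hHol := hunif i
  set η : E → ℝ := (fun x => cut E x) with hη
  have hηc : ContDiff ℝ ∞ η := cut_contDiff
  have hηs : HasCompactSupport η := (cut E).hasCompactSupport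
  have hη3 : ContDiff ℝ 3 η := by exact_mod_cast contDiff_infty.1 hηc 3
  have hη_out : ∀ x, x ∉ closedBall (0:E) (5/8) → η =ᶠ[𝓝 x] fun _ => 0 := fun x hx => by
    filter_upwards [isClosed_closedBall.isOpen_compl.mem_nhds hx] with y hy
    exact cut_zero fun h => hy (ball_subset_closedBall h)
  set v : E → ℝ := fun x => η x * w x with hv
  have hv_out : ∀ x, x ∉ closedBall (0:E) (5/8) → v =ᶠ[𝓝 x] fun _ => 0 := fun x hx => by
    filter_upwards [hη_out x hx] with y hy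
    simp [hv, hy]
  have hvc : ContDiff ℝ 3 v := by
    rw [contDiff_iff_contDiffAt]
    intro x
    by_cases hx : x ∈ ball (0:E) 1
    · exact hη3.contDiffAt.mul (contDiffAt_const.mul (hu x hx))
    · exact contDiffAt_const.congr_of_eventuallyEq (hv_out x fun h => hx
        (closedBall_subset_ball (by norm_num) h))
  have hvs : HasCompactSupport v := hηs.mul_right
  have hD2c : ContDiff ℝ 1 (D2 v) :=
    (hvc.fderiv_right (m := 2) (by norm_num)).fderiv_right (m := 1) (by norm_num)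
  have hD2s : HasCompactSupport (D2 v) := (hvs.fderiv (𝕜 := ℝ)).fderiv (𝕜 := ℝ)
  have hD2out : ∀ x, x ∉ closedBall (0:E) (5/8) → D2 v x = 0 := fun x hx => by
    have h1 : fderiv ℝ v =ᶠ[𝓝 x] fun _ => 0 := by
      have := (hv_out x hx).fderiv (𝕜 := ℝ)
      filter_upwards [this] with y hy
      rw [hy]; simp
    rw [D2, h1.fderiv_eq]; simp
  obtain ⟨T, hT, hvT⟩ : ∃ T, 0 ≤ T ∧ Vale.Agent.P272.K.R.Hol β T (D2 v) univ := by
    obtain ⟨L, hL⟩ := hD2c.lipschitzWith_of_hasCompactSupport hD2s (by norm_num)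
    obtain ⟨A', hA'⟩ := hD2c.continuous.bounded_above_of_compact_support hD2s
    have hA0 : 0 ≤ A' := (norm_nonneg _).trans (hA' 0)
    refine ⟨L + 2 * A', by positivity, ?_⟩
    have := (HO.of_lip (s := univ) (f := D2 v) (L := L) (A := A') hβ0.le hβ1.le L.2 hA0
      (fun x _ => hA' x) (fun x _ y _ => by
        have := hL.dist_le_mul x y
        rwa [dist_eq_norm, dist_eq_norm] at this)).hol
    exact fun x hx y hy => this x hx y hy
  have key := Vale.Agent.P272.K.R.perturb hβ0 hC₀ hB (x₀ := (0:E)) (ρ := 5/8) (r := 3/4)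
    (by norm_num) hM₁ hε hAB hAM hsm (hvc.of_le (by norm_num)) hvs hD2out hT hvT hC₁ hHol
  -- bounds for `D² v`
  have h2C : 0 ≤ 2 * C₀ * C₁ := by positivity
  have hsup : ∀ x ∈ ball (0:E) (3/4), ‖D2 v x‖ ≤ 2 * C₀ * C₁ * 3 := by
    intro x hx
    rcases subsingleton_or_nontrivial E with hsub | hnt
    · have : D2 v x = 0 := by
        ext p q
        rw [Subsingleton.elim q 0]
        simp
      rw [this, norm_zero]; positivity
    · refine (key.sup_of_support hβ0.le h2C (by norm_num : (5/8:ℝ) < 3/4) hD2out x hx).trans ?_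
      gcongr
      calc ((3:ℝ) * (3/4)) ^ β ≤ (3:ℝ) ^ β := Real.rpow_le_rpow (by norm_num) (by norm_num) hβ0.le
        _ ≤ (3:ℝ) ^ (1:ℝ) := Real.rpow_le_rpow_of_exponent_le (by norm_num) hβ1.le
        _ = 3 := by norm_num
  have hDD : ∀ x ∈ ball (0:E) (1/2), D2 u x = N • D2 v x := fun x hx => by
    have h1 : v =ᶠ[𝓝 x] w := by
      filter_upwards [isOpen_ball.mem_nhds hx] with y hy
      have : η y = 1 := (cut E).one_of_mem_closedBall (ball_subset_closedBall hy)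
      simp [hv, this]
    have h2 : D2 v x = D2 w x := (h1.fderiv (𝕜 := ℝ)).fderiv_eq
    rw [h2, hwd2 x (ball_subset_ball (by norm_num) hx), smul_smul, mul_inv_cancel₀ hN0.ne',
      one_smul]
  have hfin : N * (2 * C₀ * C₁ * 3) ≤
      θ * S + 6 * C₀ * C₁ * (2 + 2 / h + 4 / h * h ^ (-β)) * K := by
    have e1 : h ≤ h ^ (1 - β) := by
      calc h = h ^ (1:ℝ) := (Real.rpow_one _).symm
        _ ≤ h ^ (1 - β) := Real.rpow_le_rpow_of_exponent_ge hh (by linarith) (by linarith)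
    have e2 : h * h ^ (-β) = h ^ (1 - β) := by
      rw [Real.rpow_sub hh, Real.rpow_one, Real.rpow_neg hh.le, div_eq_mul_inv]
    have e3 : N ≤ 4 * h ^ (1 - β) * S + (2 + 2 / h + 4 / h * h ^ (-β)) * K := by
      have : 2 * G₀ * h ^ (-β) = 4 / h * h ^ (-β) * K + 2 * h ^ (1 - β) * S := by
        rw [← e2, hG₀]; ring
      rw [hN, hG₁, this, hG₀]
      have : h * S ≤ h ^ (1 - β) * S := by gcongr
      have : 2 * K / h = 2 / h * K := by ring
      rw [this]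
      linarith
    calc N * (2 * C₀ * C₁ * 3) = 6 * C₀ * C₁ * N := by ring
      _ ≤ 6 * C₀ * C₁ * (4 * h ^ (1 - β) * S + (2 + 2 / h + 4 / h * h ^ (-β)) * K) := by gcongr
      _ = (6 * C₀ * C₁ * (4 * h ^ (1 - β))) * S
          + 6 * C₀ * C₁ * (2 + 2 / h + 4 / h * h ^ (-β)) * K := by ring
      _ ≤ _ := by gcongr
  refine ⟨fun x hx => ?_, fun x hx y hy => ?_⟩
  · rw [hDD x hx, norm_smul, Real.norm_eq_abs, abs_of_pos hN0]
    exact (mul_le_mul_of_nonneg_left (hsup x (ball_subset_ball (by norm_num) hx)) hN0.le).trans hfin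
  · rw [hDD x hx, hDD y hy, ← smul_sub, norm_smul, Real.norm_eq_abs, abs_of_pos hN0]
    have h2 : 0 ≤ ‖x - y‖ ^ β := Real.rpow_nonneg (norm_nonneg _) _
    calc N * ‖D2 v x - D2 v y‖ ≤ N * (2 * C₀ * C₁ * ‖x - y‖ ^ β) :=
          mul_le_mul_of_nonneg_left (key x (mem_univ _) y (mem_univ _)) hN0.le
      _ ≤ N * (2 * C₀ * C₁ * 3 * ‖x - y‖ ^ β) :=
          mul_le_mul_of_nonneg_left (mul_le_mul_of_nonneg_right
            (le_mul_of_one_le_right h2C (by norm_num)) h2) hN0.le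
      _ = N * (2 * C₀ * C₁ * 3) * ‖x - y‖ ^ β := by ring
      _ ≤ _ := mul_le_mul_of_nonneg_right hfin h2

end Vale.Agent.P299.D2
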