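import Vale.Agent.P299.H723.D2.Sch1

/-!
# Interior Schauder estimate for `A·D²u + b·Du + c u = 0`, part 2: scaling, weighted supremum
-/

set_option maxSynthPendingDepth 3

open scoped ContDiff Topology
open Filter Set Metric

noncomputable section

namespace Vale.Agent.P299.D2

open Vale.Agent.P272.K.LIN Vale.Agent.P272.K.IE
open Vale.Agent.P272.K.R (Bil D2 CCE UH)

variable {E : Type} [NormedAddCommGroup E] [NormedSpace ℝ E]

/-- bounds for the coefficients on the set `U` -/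
structure Coef (A : E → Bil E →L[ℝ] ℝ) (b : E → (E →L[ℝ] ℝ) →L[ℝ] ℝ) (c : E → ℝ)
    (U : Set E) (B : Bil E →L[ℝ] ℝ) (ε a L : ℝ) : Prop where
  near : ∀ x ∈ U, ‖A x - B‖ ≤ ε
  Ab : ∀ x ∈ U, ‖A x‖ ≤ a
  bb : ∀ x ∈ U, ‖b x‖ ≤ a
  cb : ∀ x ∈ U, ‖c x‖ ≤ a
  Al : ∀ x ∈ U, ∀ y ∈ U, ‖A x - A y‖ ≤ L * ‖x - y‖
  bl : ∀ x ∈ U, ∀ y ∈ U, ‖b x - b y‖ ≤ L * ‖x - y‖
  cl : ∀ x ∈ U, ∀ y ∈ U, ‖c x - c y‖ ≤ L * ‖x - y‖

/-- the hypotheses on a ball -/
structure HypV (A : E → Bil E →L[ℝ] ℝ) (b : E → (E →L[ℝ] ℝ) →L[ℝ] ℝ) (c : E → ℝ)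
    (u : E → ℝ) (x₀ : E) (d K : ℝ) : Prop where
  c3 : ∀ x ∈ ball x₀ d, ContDiffAt ℝ 3 u x
  bd : ∀ x ∈ ball x₀ d, |u x| ≤ K
  eq : ∀ x ∈ ball x₀ d, A x (D2 u x) + b x (fderiv ℝ u x) + c x * u x = 0

theorem HypV.mono {A : E → Bil E →L[ℝ] ℝ} {b : E → (E →L[ℝ] ℝ) →L[ℝ] ℝ} {c : E → ℝ}
    {u : E → ℝ} {x₀ x₁ : E} {d d' K : ℝ} (h : HypV A b c u x₀ d K)
    (hs : ball x₁ d' ⊆ ball x₀ d) : HypV A b c u x₁ d' K :=
  ⟨fun x hx => h.c3 x (hs hx), fun x hx => h.bd x (hs hx), fun x hx => h.eq x (hs hx)⟩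

variable [FiniteDimensional ℝ E]

/-- The scaled form of `unit_est`. -/
theorem scale_est {β : ℝ} (hβ0 : 0 < β) (hβ1 : β < 1) {C₀ : ℝ} (hC₀ : 0 ≤ C₀)
    {B : Bil E →L[ℝ] ℝ} (hB : CCE β C₀ B) {ε a L d₀ : ℝ} (hε : 0 ≤ ε) (ha : 0 ≤ a) (hL : 0 ≤ L)
    (hd₀ : 0 ≤ d₀) (hsm : C₀ * (ε + 6 * L * d₀) ≤ 1 / 2) :
    ∀ θ : ℝ, 0 < θ → ∃ C : ℝ, 0 ≤ C ∧ ∀ (A : E → Bil E →L[ℝ] ℝ) (b : E → (E →L[ℝ] ℝ) →L[ℝ] ℝ)
      (c u : E → ℝ) (U : Set E) (x₀ : E) (d K S : ℝ), Coef A b c U B ε a L → ball x₀ d ⊆ U →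
      0 < d → d ≤ d₀ → d ≤ 1 → 0 < K → 0 ≤ S → HypV A b c u x₀ d K →
      (∀ x ∈ ball x₀ d, ‖D2 u x‖ ≤ S) →
      HO (ball x₀ (d/2)) β (D2 u) (θ * S + C * K / d ^ 2)
        ((θ * S + C * K / d ^ 2) * d ^ (-β)) := by
  intro θ hθ
  have hpow : ((3:ℝ) * (3/4)) ^ β ≤ 3 := by
    calc ((3:ℝ) * (3/4)) ^ β ≤ (3:ℝ) ^ β := Real.rpow_le_rpow (by norm_num) (by norm_num) hβ0.le
      _ ≤ (3:ℝ) ^ (1:ℝ) := Real.rpow_le_rpow_of_exponent_le (by norm_num) hβ1.le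
      _ = 3 := by norm_num
  have hsm' : C₀ * (ε + 2 * L * d₀ * (3 * (3/4)) ^ β) ≤ 1 / 2 := by
    refine le_trans ?_ hsm
    refine mul_le_mul_of_nonneg_left ?_ hC₀
    have : 2 * L * d₀ * (3 * (3/4)) ^ β ≤ 2 * L * d₀ * 3 :=
      mul_le_mul_of_nonneg_left hpow (by positivity)
    linarith
  obtain ⟨C, hC, h⟩ := unit_est (E := E) (a := L + 2 * a) hβ0 hβ1 hC₀ hB hε
    (by positivity : 0 ≤ 2 * L * d₀) hsm' θ hθ
  refine ⟨C, hC, fun A b c u U x₀ d K S hco hU hd hdd hd1 hK hS hu hSb => ?_⟩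
  have hmem : ∀ r : ℝ, ∀ y ∈ ball (0:E) r, x₀ + d • y ∈ ball x₀ (d * r) := fun r y hy => by
    rw [mem_ball, dist_zero_right] at hy
    rw [mem_ball, dist_eq_norm, add_sub_cancel_left, norm_smul, Real.norm_eq_abs, abs_of_pos hd]
    gcongr
  have hmem1 : ∀ y ∈ ball (0:E) 1, x₀ + d • y ∈ ball x₀ d := fun y hy => by
    simpa using hmem 1 y hy
  have h34 : ball (0:E) (3/4) ⊆ ball (0:E) 1 := ball_subset_ball (by norm_num)
  have hmemU : ∀ y ∈ ball (0:E) (3/4), x₀ + d • y ∈ U := fun y hy => hU (hmem1 y (h34 hy))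
  have hdiff : ∀ y z : E, x₀ + d • y - (x₀ + d • z) = d • (y - z) := fun y z => by
    rw [smul_sub]; abel
  have hnd : ∀ y z : E, ‖x₀ + d • y - (x₀ + d • z)‖ = d * ‖y - z‖ := fun y z => by
    rw [hdiff, norm_smul, Real.norm_eq_abs, abs_of_pos hd]
  set v : E → ℝ := fun y => u (x₀ + d • y) with hv
  set A' : E → Bil E →L[ℝ] ℝ := fun y => A (x₀ + d • y) with hA'
  set b' : E → (E →L[ℝ] ℝ) →L[ℝ] ℝ := fun y => d • b (x₀ + d • y) with hb'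
  set c' : E → ℝ := fun y => d ^ 2 * c (x₀ + d • y) with hc'
  have hd2 : d ^ 2 ≤ 1 := pow_le_one₀ hd.le hd1
  have hc3 : ∀ y ∈ ball (0:E) 1, ContDiffAt ℝ 3 v y := fun y hy => by
    have hA : ContDiffAt ℝ 3 (fun y : E => x₀ + d • y) y := by fun_prop
    exact ContDiffAt.comp y (hu.c3 _ (hmem1 y hy)) hA
  have hD1 : ∀ y ∈ ball (0:E) 1, fderiv ℝ v y = d • fderiv ℝ u (x₀ + d • y) := fun y hy =>
    (hasFDerivAt_scale ((hu.c3 _ (hmem1 y hy)).differentiableAt (by norm_num))).fderiv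
  have hD2 : ∀ y ∈ ball (0:E) 1, D2 v y = (d ^ 2) • D2 u (x₀ + d • y) := fun y hy =>
    fderiv2_scale ((hu.c3 _ (hmem1 y hy)).of_le (by norm_num))
  have key := h A' b' c' v K (d ^ 2 * S) hK (by positivity)
    (fun y hy => hco.near _ (hmemU y hy))
    (fun y hy z hz => by
      have h1 := hco.Al _ (hmemU y hy) _ (hmemU z hz)
      rw [hnd] at h1
      have h2 : ‖y - z‖ ≤ 2 * ‖y - z‖ ^ β := by
        have h3 : ‖y - z‖ ≤ 3/2 := by
          rw [mem_ball, dist_zero_right] at hy hz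
          linarith [norm_sub_le y z]
        rcases (norm_nonneg (y - z)).eq_or_lt with h0 | h0
        · rw [← h0, Real.zero_rpow hβ0.ne']; simp
        · calc ‖y - z‖ = ‖y - z‖ ^ (1 - β) * ‖y - z‖ ^ β := by
                rw [← Real.rpow_add h0]; simp
            _ ≤ 2 * ‖y - z‖ ^ β := by
              refine mul_le_mul_of_nonneg_right ?_ (by positivity)
              calc ‖y - z‖ ^ (1 - β) ≤ 2 ^ (1 - β) :=
                    Real.rpow_le_rpow h0.le (by linarith) (by linarith)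
                _ ≤ (2:ℝ) ^ (1:ℝ) := Real.rpow_le_rpow_of_exponent_le (by norm_num) (by linarith)
                _ = 2 := by norm_num
      calc ‖A' y - A' z‖ ≤ L * (d * ‖y - z‖) := h1
        _ ≤ L * (d₀ * (2 * ‖y - z‖ ^ β)) := by gcongr
        _ = 2 * L * d₀ * ‖y - z‖ ^ β := by ring)
    ((HO.of_lip hβ0.le hβ1.le hL ha (fun y hy => hco.Ab _ (hmemU y hy))
      (fun y hy z hz => by
        have h1 := hco.Al _ (hmemU y hy) _ (hmemU z hz)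
        rw [hnd] at h1
        refine h1.trans (mul_le_mul_of_nonneg_left ?_ hL)
        exact mul_le_of_le_one_left (norm_nonneg _) hd1)).mono (by linarith) le_rfl)
    ((HO.of_lip hβ0.le hβ1.le hL ha
      (fun y hy => by
        rw [hb', norm_smul, Real.norm_eq_abs, abs_of_pos hd]
        calc d * ‖b (x₀ + d • y)‖ ≤ 1 * a :=
              mul_le_mul hd1 (hco.bb _ (hmemU y hy)) (norm_nonneg _) zero_le_one
          _ = a := one_mul a)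
      (fun y hy z hz => by
        have h1 := hco.bl _ (hmemU y hy) _ (hmemU z hz)
        rw [hnd] at h1
        simp only [hb']
        rw [← smul_sub, norm_smul, Real.norm_eq_abs, abs_of_pos hd]
        calc d * ‖b (x₀ + d • y) - b (x₀ + d • z)‖ ≤ 1 * (L * (1 * ‖y - z‖)) := by
              refine mul_le_mul hd1 (h1.trans ?_) (norm_nonneg _) zero_le_one
              gcongr
          _ = L * ‖y - z‖ := by ring)).mono (by linarith) le_rfl)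
    ((HO.of_lip hβ0.le hβ1.le hL ha
      (fun y hy => by
        rw [hc', norm_mul, Real.norm_eq_abs (d ^ 2), abs_of_nonneg (sq_nonneg d)]
        calc d ^ 2 * ‖c (x₀ + d • y)‖ ≤ 1 * a :=
              mul_le_mul hd2 (hco.cb _ (hmemU y hy)) (norm_nonneg _) zero_le_one
          _ = a := one_mul a)
      (fun y hy z hz => by
        have h1 := hco.cl _ (hmemU y hy) _ (hmemU z hz)
        rw [hnd] at h1
        simp only [hc']
        rw [← mul_sub, norm_mul, Real.norm_eq_abs (d ^ 2), abs_of_nonneg (sq_nonneg d)]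
        calc d ^ 2 * ‖c (x₀ + d • y) - c (x₀ + d • z)‖ ≤ 1 * (L * (1 * ‖y - z‖)) := by
              refine mul_le_mul hd2 (h1.trans ?_) (norm_nonneg _) zero_le_one
              gcongr
          _ = L * ‖y - z‖ := by ring)).mono (by linarith) le_rfl)
    hc3 (fun y hy => hu.bd _ (hmem1 y hy))
    (fun y hy => by
      rw [hD1 y hy, hD2 y hy]
      simp only [hA', hb', hc', map_smul, smul_eq_mul, _root_.smul_apply]
      have := hu.eq _ (hmem1 y hy)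
      have e : d ^ 2 * (A (x₀ + d • y)) (D2 u (x₀ + d • y)) +
          d * (d * (b (x₀ + d • y)) (fderiv ℝ u (x₀ + d • y))) + d ^ 2 * c (x₀ + d • y) * v y =
          d ^ 2 * (A (x₀ + d • y) (D2 u (x₀ + d • y)) + b (x₀ + d • y) (fderiv ℝ u (x₀ + d • y)) +
            c (x₀ + d • y) * u (x₀ + d • y)) := by rw [hv]; ring
      rw [e, this, mul_zero])
    (fun y hy => by
      rw [hD2 y hy, norm_smul, Real.norm_eq_abs, abs_of_nonneg (sq_nonneg d)]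
      gcongr
      exact hSb _ (hmem1 y hy))
  have hback : ∀ x ∈ ball x₀ (d/2), ∃ y ∈ ball (0:E) (1/2), x = x₀ + d • y := fun x hx => by
    refine ⟨d⁻¹ • (x - x₀), ?_, ?_⟩
    · rw [mem_ball, dist_zero_right, norm_smul, norm_inv, Real.norm_eq_abs, abs_of_pos hd]
      rw [mem_ball, dist_eq_norm] at hx
      calc d⁻¹ * ‖x - x₀‖ < d⁻¹ * (d / 2) := by gcongr
        _ = 1/2 := by field_simp
    · rw [smul_smul, mul_inv_cancel₀ hd.ne', one_smul]; abel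
  have hhalf : ball (0:E) (1/2) ⊆ ball (0:E) 1 := ball_subset_ball (by norm_num)
  have hD : ∀ y ∈ ball (0:E) (1/2), D2 u (x₀ + d • y)
      = (d ^ 2)⁻¹ • D2 v y := fun y hy => by
    rw [hD2 y (hhalf hy), smul_smul, inv_mul_cancel₀ (by positivity), one_smul]
  have hconst : (d ^ 2)⁻¹ * (θ * (d ^ 2 * S) + C * K) = θ * S + C * K / d ^ 2 := by
    field_simp
  refine ⟨fun x hx => ?_, fun x hx x' hx' => ?_⟩
  · obtain ⟨y, hy, rfl⟩ := hback x hx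
    rw [hD y hy, norm_smul, norm_inv, Real.norm_eq_abs, abs_of_nonneg (sq_nonneg d), ← hconst]
    gcongr
    exact key.sup y hy
  · obtain ⟨y, hy, rfl⟩ := hback x hx
    obtain ⟨y', hy', rfl⟩ := hback x' hx'
    rw [hD y hy, hD y' hy', ← smul_sub, norm_smul, norm_inv, Real.norm_eq_abs,
      abs_of_nonneg (sq_nonneg d), hnd,
      Real.mul_rpow hd.le (norm_nonneg _), ← hconst]
    have h3 := key.hol y hy y' hy'
    have h4 : d ^ (-β) * d ^ β = 1 := by rw [← Real.rpow_add hd]; simp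
    calc (d ^ 2)⁻¹ * ‖D2 v y - D2 v y'‖
        ≤ (d ^ 2)⁻¹ * ((θ * (d ^ 2 * S) + C * K) * ‖y - y'‖ ^ β) := by gcongr
      _ = (d ^ 2)⁻¹ * (θ * (d ^ 2 * S) + C * K) * (d ^ (-β) * d ^ β) * ‖y - y'‖ ^ β := by
        rw [h4]; ring
      _ = _ := by ring

/-- Interior bound of the second derivatives. -/
theorem sup_est {β : ℝ} (hβ0 : 0 < β) (hβ1 : β < 1) {C₀ : ℝ} (hC₀ : 0 ≤ C₀)
    {B : Bil E →L[ℝ] ℝ} (hB : CCE β C₀ B) {ε a L d₀ : ℝ} (hε : 0 ≤ ε) (ha : 0 ≤ a) (hL : 0 ≤ L)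
    (hd₀ : 0 ≤ d₀) (hsm : C₀ * (ε + 6 * L * d₀) ≤ 1 / 2) :
    ∃ C : ℝ, 0 ≤ C ∧ ∀ (A : E → Bil E →L[ℝ] ℝ) (b : E → (E →L[ℝ] ℝ) →L[ℝ] ℝ)
      (c u : E → ℝ) (U : Set E) (x₀ : E) (d K : ℝ), Coef A b c U B ε a L → ball x₀ d ⊆ U →
      0 < d → d ≤ d₀ → d ≤ 1 → 0 < K → HypV A b c u x₀ d K →
      ∀ x ∈ ball x₀ (d/2), ‖D2 u x‖ ≤ C * K / d ^ 2 := by
  obtain ⟨C, hC, h⟩ := scale_est hβ0 hβ1 hC₀ hB hε ha hL hd₀ hsm (1/8) (by norm_num)
  refine ⟨128 * C, by positivity, fun A b c u U x₀ d M hco hU hd hdd hd1 hM hu x hx => ?_⟩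
  have : ProperSpace E := FiniteDimensional.proper ℝ E
  set d₁ : ℝ := 3 / 4 * d with hd₁
  set g : E → ℝ := fun y => (d₁ - ‖y - x₀‖) ^ 2 * ‖D2 u y‖ with hg
  have hsub : closedBall x₀ d₁ ⊆ ball x₀ d := closedBall_subset_ball (by rw [hd₁]; linarith)
  have hcont : ContinuousOn g (closedBall x₀ d₁) := by
    intro y hy
    have h1 : ContinuousAt (D2 u) y :=
      (((hu.c3 y (hsub hy)).fderiv_right (m := 2) (by norm_num)).fderiv_right (m := 1)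
        (by norm_num)).continuousAt
    have h2 : ContinuousAt (fun y => ‖D2 u y‖) y := h1.norm
    have h3 : ContinuousAt (fun y => (d₁ - ‖y - x₀‖) ^ 2) y := by fun_prop
    exact (h3.mul h2).continuousWithinAt
  obtain ⟨x₁, hx₁, hmax⟩ := (isCompact_closedBall x₀ d₁).exists_isMaxOn
    ⟨x₀, mem_closedBall_self (by rw [hd₁]; positivity)⟩ hcont
  have hmax' : ∀ y ∈ closedBall x₀ d₁, g y ≤ g x₁ := fun y hy => hmax hy
  have hx₁' : ‖x₁ - x₀‖ ≤ d₁ := by rwa [mem_closedBall, dist_eq_norm] at hx₁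
  have hg0 : ∀ y, 0 ≤ g y := fun y => by simp only [hg]; positivity
  have hgx₁ : g x₁ ≤ 8 * C * M := by
    rcases eq_or_lt_of_le hx₁' with he | hlt
    · have : g x₁ = 0 := by simp [hg, he]
      rw [this]; positivity
    · set δ : ℝ := (d₁ - ‖x₁ - x₀‖) / 2 with hδ
      have hδ0 : 0 < δ := by rw [hδ]; linarith
      have hn := norm_nonneg (x₁ - x₀)
      have hδ1 : δ ≤ 1 := by rw [hδ, hd₁]; linarith
      have hδd : δ ≤ d₀ := by rw [hδ, hd₁]; linarith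
      have hball : ∀ y ∈ ball x₁ δ, ‖y - x₀‖ ≤ d₁ - δ := fun y hy => by
        rw [mem_ball, dist_eq_norm] at hy
        calc ‖y - x₀‖ = ‖(y - x₁) + (x₁ - x₀)‖ := by congr 1; abel
          _ ≤ ‖y - x₁‖ + ‖x₁ - x₀‖ := norm_add_le _ _
          _ ≤ d₁ - δ := by rw [hδ] at hy ⊢; linarith
      have hsub' : ball x₁ δ ⊆ closedBall x₀ d₁ := fun y hy => by
        rw [mem_closedBall, dist_eq_norm]; linarith [hball y hy]
      have hS : ∀ y ∈ ball x₁ δ, ‖D2 u y‖ ≤ g x₁ / δ ^ 2 := fun y hy => by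
        rw [le_div_iff₀ (by positivity)]
        have h1 := hball y hy
        have h2 : δ ^ 2 ≤ (d₁ - ‖y - x₀‖) ^ 2 := by
          gcongr; linarith
        calc ‖D2 u y‖ * δ ^ 2 ≤ ‖D2 u y‖ * (d₁ - ‖y - x₀‖) ^ 2 := by
              gcongr
          _ = g y := by rw [hg]; ring
          _ ≤ g x₁ := hmax' y (hsub' hy)
      have h3 := (h A b c u U x₁ δ M (g x₁ / δ ^ 2) hco ((hsub'.trans hsub).trans hU) hδ0 hδd hδ1
        hM (div_nonneg (hg0 _) (by positivity))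
        (hu.mono (hsub'.trans hsub)) hS).sup x₁ (mem_ball_self (by positivity))
      have h4 : g x₁ = 4 * δ ^ 2 * ‖D2 u x₁‖ := by
        rw [hg]; simp only [hδ]; ring
      have h5 : 4 * δ ^ 2 * ‖D2 u x₁‖ ≤
          4 * δ ^ 2 * (1 / 8 * (g x₁ / δ ^ 2) + C * M / δ ^ 2) := by gcongr
      have h6 : 4 * δ ^ 2 * (1 / 8 * (g x₁ / δ ^ 2) + C * M / δ ^ 2) = g x₁ / 2 + 4 * (C * M) := by
        field_simp
        ring
      rw [← h4, h6] at h5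
      linarith
  have hxm : x ∈ closedBall x₀ d₁ := by
    rw [mem_closedBall]; rw [mem_ball] at hx; rw [hd₁]; linarith
  have h7 := hmax' x hxm
  have h8 : (d / 4) ^ 2 ≤ (d₁ - ‖x - x₀‖) ^ 2 := by
    rw [mem_ball, dist_eq_norm] at hx
    gcongr
    rw [hd₁]; linarith
  have h9 : (d / 4) ^ 2 * ‖D2 u x‖ ≤ 8 * C * M := by
    calc (d / 4) ^ 2 * ‖D2 u x‖ ≤ (d₁ - ‖x - x₀‖) ^ 2 * ‖D2 u x‖ :=
          mul_le_mul_of_nonneg_right h8 (norm_nonneg _)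
      _ ≤ _ := h7.trans hgx₁
  rw [le_div_iff₀ (by positivity)]
  nlinarith

/-- Interior `C^{2,β}` estimate, small balls. -/
theorem ball_est {β : ℝ} (hβ0 : 0 < β) (hβ1 : β < 1) {C₀ : ℝ} (hC₀ : 0 ≤ C₀)
    {B : Bil E →L[ℝ] ℝ} (hB : CCE β C₀ B) {ε a L d₀ : ℝ} (hε : 0 ≤ ε) (ha : 0 ≤ a) (hL : 0 ≤ L)
    (hd₀ : 0 ≤ d₀) (hsm : C₀ * (ε + 6 * L * d₀) ≤ 1 / 2) (d : ℝ) (hd : 0 < d) (hdd : d ≤ d₀)
    (hd1 : d ≤ 1) :
    ∃ C : ℝ, 0 ≤ C ∧ ∀ (A : E → Bil E →L[ℝ] ℝ) (b : E → (E →L[ℝ] ℝ) →L[ℝ] ℝ)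
      (c u : E → ℝ) (U : Set E) (x₀ : E) (K : ℝ), Coef A b c U B ε a L → ball x₀ d ⊆ U →
      0 < K → HypV A b c u x₀ d K →
      HO (ball x₀ (d/4)) β (D2 u) (C * K) (C * K) := by
  obtain ⟨C₁, hC₁, h₁⟩ := sup_est hβ0 hβ1 hC₀ hB hε ha hL hd₀ hsm
  obtain ⟨C₂, hC₂, h₂⟩ := scale_est hβ0 hβ1 hC₀ hB hε ha hL hd₀ hsm 1 one_pos
  set Q : ℝ := C₁ / d ^ 2 + C₂ / (d/2) ^ 2 with hQ
  have hQ0 : 0 ≤ Q := by positivity
  have hp : 0 ≤ (d/2) ^ (-β) := Real.rpow_nonneg (by positivity) _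
  refine ⟨Q + Q * (d/2) ^ (-β), by positivity, fun A b c u U x₀ K hco hU hK hu => ?_⟩
  have hS := h₁ A b c u U x₀ d K hco hU hd hdd hd1 hK hu
  have hb2 : ball x₀ (d/2) ⊆ ball x₀ d := ball_subset_ball (by linarith)
  have := h₂ A b c u U x₀ (d/2) K (C₁ * K / d ^ 2) hco (hb2.trans hU) (by positivity)
    (by linarith) (by linarith) hK (by positivity) (hu.mono hb2) hS
  have hE : 1 * (C₁ * K / d ^ 2) + C₂ * K / (d/2) ^ 2 = Q * K := by rw [hQ]; ring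
  rw [hE, show d / 2 / 2 = d / 4 by ring] at this
  refine this.mono ?_ ?_
  · have : 0 ≤ Q * (d/2) ^ (-β) * K := by positivity
    linarith
  · have : 0 ≤ Q * K := by positivity
    calc Q * K * (d/2) ^ (-β) = Q * (d/2) ^ (-β) * K := by ring
      _ ≤ _ := by linarith

end Vale.Agent.P299.D2
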