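import Vale.Agent.P299.H723.D2.Sch2
import Vale.Agent.P299.H723.D2.Iface
import Vale.Agent.P272.K.N.Interp
import Vale.Agent.P272.K.N.Linear

/-!
# Interior Schauder estimate, part 3: compact sets, the equation `Δ_g u = μ u`
-/

set_option maxSynthPendingDepth 3

open scoped ContDiff Topology ComplexOrder
open Filter Set Metric

noncomputable section

namespace Vale.Agent.P299.D2

open Vale.Agent.P272.K.LIN Vale.Agent.P272.K.IE
open Vale.Agent.P272.K.R (Bil D2 CCE UH AllCCE)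
open Vale.Agent.P272.K (Cm cHess dz dzb)

section gen
variable {E : Type} [NormedAddCommGroup E] [NormedSpace ℝ E]

/-- `u` is a solution on `U` bounded by `K` -/
structure SolOn (A : E → Bil E →L[ℝ] ℝ) (b : E → (E →L[ℝ] ℝ) →L[ℝ] ℝ) (c : E → ℝ)
    (U : Set E) (u : E → ℝ) (K : ℝ) : Prop where
  c3 : ∀ x ∈ U, ContDiffAt ℝ 3 u x
  bd : ∀ x ∈ U, |u x| ≤ K
  eq : ∀ x ∈ U, A x (D2 u x) + b x (fderiv ℝ u x) + c x * u x = 0

variable [FiniteDimensional ℝ E]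

/-- local estimate near a point -/
theorem local_est {β : ℝ} (hβ0 : 0 < β) (hβ1 : β < 1) {A : E → Bil E →L[ℝ] ℝ}
    {b : E → (E →L[ℝ] ℝ) →L[ℝ] ℝ} {c : E → ℝ} {U : Set E} (hU : IsOpen U) {x₁ : E}
    (hx₁ : x₁ ∈ U) (hA : ContDiffAt ℝ 1 A x₁) (hb : ContDiffAt ℝ 1 b x₁)
    (hc : ContDiffAt ℝ 1 c x₁) (hpos : ∀ ξ : E →L[ℝ] ℝ, ξ ≠ 0 → 0 < A x₁ (ξ.smulRight ξ)) :
    ∃ r > 0, ∃ ρ > 0, ∃ C : ℝ, 0 ≤ C ∧ (∀ x ∈ ball x₁ r, ball x ρ ⊆ U) ∧
      ∀ (u : E → ℝ) (K : ℝ), 0 < K → SolOn A b c U u K → ∀ x ∈ ball x₁ r,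
        HO (ball x ρ) β (D2 u) (C * K) (C * K) := by
  obtain ⟨C₀, hC₀, hB⟩ := Vale.Agent.P272.K.R.allCCE E hβ0 hβ1 (A x₁) hpos
  obtain ⟨LA, tA, htA, hLA⟩ := hA.exists_lipschitzOnWith
  obtain ⟨Lb, tb, htb, hLb⟩ := hb.exists_lipschitzOnWith
  obtain ⟨Lc, tc, htc, hLc⟩ := hc.exists_lipschitzOnWith
  set L : ℝ := LA + Lb + Lc with hL
  have hLA0 : (0:ℝ) ≤ LA := LA.2
  have hLb0 : (0:ℝ) ≤ Lb := Lb.2
  have hLc0 : (0:ℝ) ≤ Lc := Lc.2
  have hL0 : 0 ≤ L := by positivity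
  obtain ⟨r₁, hr₁, hr₁'⟩ := Metric.mem_nhds_iff.1
    (Filter.inter_mem (Filter.inter_mem htA htb) (Filter.inter_mem htc (hU.mem_nhds hx₁)))
  set a : ℝ := ‖A x₁‖ + ‖b x₁‖ + ‖c x₁‖ + L with ha
  have ha0 : 0 ≤ a := by positivity
  set κ : ℝ := 1 / (28 * (C₀ + 1) * (L + 1)) with hκ
  have hκ0 : 0 < κ := by positivity
  set r₂ : ℝ := min r₁ (min 1 κ) with hr₂
  have hr₂0 : 0 < r₂ := lt_min hr₁ (lt_min one_pos hκ0)
  have hr₂1 : r₂ ≤ 1 := (min_le_right _ _).trans (min_le_left _ _)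
  have hr₂κ : r₂ ≤ κ := (min_le_right _ _).trans (min_le_right _ _)
  have hball : ball x₁ r₂ ⊆ ball x₁ r₁ := ball_subset_ball (min_le_left _ _)
  have hlip : ∀ {F : Type} [NormedAddCommGroup F] [NormedSpace ℝ F] (f : E → F) (t : Set E)
      (M : NNReal), (M : ℝ) ≤ L → LipschitzOnWith M f t → ball x₁ r₂ ⊆ t →
      ∀ x ∈ ball x₁ r₂, ∀ y ∈ ball x₁ r₂, ‖f x - f y‖ ≤ L * ‖x - y‖ := by
    intro F _ _ f t M hM hf ht x hx y hy
    have := hf.dist_le_mul x (ht hx) y (ht hy)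
    rw [dist_eq_norm, dist_eq_norm] at this
    exact this.trans (mul_le_mul_of_nonneg_right hM (norm_nonneg _))
  have hAl := hlip A tA LA (by rw [hL]; linarith) hLA fun y hy => (hr₁' (hball hy)).1.1
  have hbl := hlip b tb Lb (by rw [hL]; linarith) hLb fun y hy => (hr₁' (hball hy)).1.2
  have hcl := hlip c tc Lc (by rw [hL]; linarith) hLc fun y hy => (hr₁' (hball hy)).2.1
  have hx₁m : x₁ ∈ ball x₁ r₂ := mem_ball_self hr₂0
  have hsup : ∀ {F : Type} [NormedAddCommGroup F] [NormedSpace ℝ F] (f : E → F),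
      (∀ x ∈ ball x₁ r₂, ∀ y ∈ ball x₁ r₂, ‖f x - f y‖ ≤ L * ‖x - y‖) →
      ∀ x ∈ ball x₁ r₂, ‖f x‖ ≤ ‖f x₁‖ + L := by
    intro F _ _ f hf x hx
    have h1 := hf x hx x₁ hx₁m
    have h2 : ‖x - x₁‖ ≤ 1 := (mem_ball_iff_norm.1 hx).le.trans hr₂1
    calc ‖f x‖ = ‖(f x - f x₁) + f x₁‖ := by simp
      _ ≤ ‖f x - f x₁‖ + ‖f x₁‖ := norm_add_le _ _
      _ ≤ L * ‖x - x₁‖ + ‖f x₁‖ := by linarith
      _ ≤ L * 1 + ‖f x₁‖ := by gcongr
      _ = _ := by ring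
  set ε : ℝ := L * κ with hε
  have hε0 : 0 ≤ ε := by positivity
  have hco : Coef A b c (ball x₁ r₂) (A x₁) ε a L :=
    { near := fun x hx => (hAl x hx x₁ hx₁m).trans
        (mul_le_mul_of_nonneg_left ((mem_ball_iff_norm.1 hx).le.trans hr₂κ) hL0)
      Ab := fun x hx => (hsup A hAl x hx).trans (by
        have := norm_nonneg (b x₁); have := norm_nonneg (c x₁); rw [ha]; linarith)
      bb := fun x hx => (hsup b hbl x hx).trans (by
        have := norm_nonneg (A x₁); have := norm_nonneg (c x₁); rw [ha]; linarith)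
      cb := fun x hx => (hsup c hcl x hx).trans (by
        have := norm_nonneg (A x₁); have := norm_nonneg (b x₁); rw [ha]; linarith)
      Al := hAl
      bl := hbl
      cl := hcl }
  have hsm : C₀ * (ε + 6 * L * r₂) ≤ 1 / 2 := by
    have h1 : ε + 6 * L * r₂ ≤ 7 * L * κ := by
      have : 6 * L * r₂ ≤ 6 * L * κ := by gcongr
      rw [hε]; linarith
    calc C₀ * (ε + 6 * L * r₂) ≤ (C₀ + 1) * (7 * (L + 1) * κ) := by
          refine mul_le_mul (by linarith) (h1.trans ?_) (by positivity) (by positivity)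
          gcongr; linarith
      _ = 1 / 4 := by rw [hκ]; field_simp; norm_num
      _ ≤ 1 / 2 := by norm_num
  set d : ℝ := r₂ / 2 with hd
  have hd0 : 0 < d := by positivity
  obtain ⟨C, hC, hest⟩ := ball_est hβ0 hβ1 hC₀ hB hε0 ha0 hL0 hr₂0.le hsm d hd0
    (by rw [hd]; linarith) (by rw [hd]; linarith)
  have hsub : ∀ x ∈ ball x₁ (r₂/2), ball x d ⊆ ball x₁ r₂ := fun x hx y hy => by
    rw [mem_ball] at hx hy ⊢
    rw [hd] at hy
    linarith [dist_triangle y x x₁]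
  refine ⟨r₂ / 2, by positivity, d / 4, by positivity, C, hC, fun x hx y hy => ?_,
    fun u K hK hu x hx => ?_⟩
  · have h1 : y ∈ ball x₁ r₂ := hsub x hx (ball_subset_ball (by linarith) hy)
    exact (hr₁' (hball h1)).2.2
  · exact hest A b c u (ball x₁ r₂) x K hco (hsub x hx) hK
      ⟨fun y hy => hu.c3 y (hr₁' (hball (hsub x hx hy))).2.2,
        fun y hy => hu.bd y (hr₁' (hball (hsub x hx hy))).2.2,
        fun y hy => hu.eq y (hr₁' (hball (hsub x hx hy))).2.2⟩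

/-- uniform estimate on compact subsets -/
theorem compact_est {β : ℝ} (hβ0 : 0 < β) (hβ1 : β < 1) {A : E → Bil E →L[ℝ] ℝ}
    {b : E → (E →L[ℝ] ℝ) →L[ℝ] ℝ} {c : E → ℝ} {U : Set E} (hU : IsOpen U)
    (hA : ∀ x ∈ U, ContDiffAt ℝ 1 A x) (hb : ∀ x ∈ U, ContDiffAt ℝ 1 b x)
    (hc : ∀ x ∈ U, ContDiffAt ℝ 1 c x)
    (hpos : ∀ x ∈ U, ∀ ξ : E →L[ℝ] ℝ, ξ ≠ 0 → 0 < A x (ξ.smulRight ξ))
    {s : Set E} (hs : IsCompact s) (hsU : s ⊆ U) :
    ∃ C : ℝ, 0 ≤ C ∧ ∀ (u : E → ℝ) (K : ℝ), 0 < K → SolOn A b c U u K → ∀ x ∈ s,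
      ‖fderiv ℝ u x‖ ≤ C * K ∧ ‖D2 u x‖ ≤ C * K ∧
        ∀ y ∈ s, ‖D2 u x - D2 u y‖ ≤ C * K * ‖x - y‖ ^ β := by
  have key : ∃ ρ > 0, ∃ C : ℝ, 0 ≤ C ∧ (∀ x ∈ s, ball x ρ ⊆ U) ∧
      ∀ (u : E → ℝ) (K : ℝ), 0 < K → SolOn A b c U u K → ∀ x ∈ s,
        HO (ball x ρ) β (D2 u) (C * K) (C * K) := by
    refine hs.induction_on (p := fun s => ∃ ρ > 0, ∃ C : ℝ, 0 ≤ C ∧ (∀ x ∈ s, ball x ρ ⊆ U) ∧
      ∀ (u : E → ℝ) (K : ℝ), 0 < K → SolOn A b c U u K → ∀ x ∈ s,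
        HO (ball x ρ) β (D2 u) (C * K) (C * K)) ?_ ?_ ?_ ?_
    · exact ⟨1, one_pos, 0, le_rfl, by simp, by simp⟩
    · rintro s t hst ⟨ρ, hρ, C, hC, h1, h2⟩
      exact ⟨ρ, hρ, C, hC, fun x hx => h1 x (hst hx), fun u K hK hu x hx => h2 u K hK hu x (hst hx)⟩
    · rintro s t ⟨ρ, hρ, C, hC, h1, h2⟩ ⟨ρ', hρ', C', hC', h1', h2'⟩
      refine ⟨min ρ ρ', lt_min hρ hρ', C + C', by positivity, ?_, fun u K hK hu x hx => ?_⟩
      · rintro x (hx | hx)
        · exact (ball_subset_ball (min_le_left _ _)).trans (h1 x hx)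
        · exact (ball_subset_ball (min_le_right _ _)).trans (h1' x hx)
      · have e1 : C * K ≤ (C + C') * K := by
          have : 0 ≤ C' * K := by positivity
          linarith
        have e2 : C' * K ≤ (C + C') * K := by
          have : 0 ≤ C * K := by positivity
          linarith
        rcases hx with hx | hx
        · have h3 := (h2 u K hK hu x hx).mono e1 e1
          exact ⟨fun y hy => h3.sup y (ball_subset_ball (min_le_left _ _) hy),
            fun y hy z hz => h3.hol y (ball_subset_ball (min_le_left _ _) hy) z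
              (ball_subset_ball (min_le_left _ _) hz)⟩
        · have h3 := (h2' u K hK hu x hx).mono e2 e2
          exact ⟨fun y hy => h3.sup y (ball_subset_ball (min_le_right _ _) hy),
            fun y hy z hz => h3.hol y (ball_subset_ball (min_le_right _ _) hy) z
              (ball_subset_ball (min_le_right _ _) hz)⟩
    · intro x hx
      obtain ⟨r, hr, ρ, hρ, C, hC, h1, h2⟩ := local_est hβ0 hβ1 hU (hsU hx) (hA x (hsU hx))
        (hb x (hsU hx)) (hc x (hsU hx)) (hpos x (hsU hx))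
      exact ⟨ball x r, mem_nhdsWithin_of_mem_nhds (ball_mem_nhds x hr), ρ, hρ, C, hC, h1, h2⟩
  obtain ⟨ρ, hρ, C, hC, h1, h2⟩ := key
  have hp : 0 ≤ ρ ^ (-β) := Real.rpow_nonneg hρ.le _
  set h : ℝ := ρ / 2 with hh
  have hh0 : 0 < h := by positivity
  have hhβ : 0 ≤ h ^ β := Real.rpow_nonneg hh0.le _
  refine ⟨C + 2 * C * ρ ^ (-β) + h * (4 / h ^ 2 + 2 * C * h ^ β), by positivity,
    fun u K hK hu x hx => ?_⟩
  have hCK : 0 ≤ C * K := by positivity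
  have q1 : 0 ≤ 2 * C * ρ ^ (-β) * K := by positivity
  have q2 : 0 ≤ h * (4 / h ^ 2 + 2 * C * h ^ β) * K := by positivity
  have hxm : x ∈ ball x ρ := mem_ball_self hρ
  have hcb : closedBall x h ⊆ ball x ρ := closedBall_subset_ball (by rw [hh]; linarith)
  refine ⟨?_, ?_, fun y hy => ?_⟩
  · have h3 := (Vale.Agent.P272.K.N.bound_at (f := u) (x := x) (β := β) (ε := K) hh0 hCK hβ0.le
      (fun y hy => (hu.c3 y (h1 x hx (hcb hy))).of_le (by norm_num))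
      (fun y hy => (h2 u K hK hu x hx).hol y (hcb hy) x hxm)
      (fun y hy => hu.bd y (h1 x hx (hcb hy)))).1
    have h4 : h * (4 * K / h ^ 2 + 2 * (C * K) * h ^ β) =
      h * (4 / h ^ 2 + 2 * C * h ^ β) * K := by ring
    rw [h4] at h3
    refine h3.trans ?_
    linarith
  · exact ((h2 u K hK hu x hx).sup x hxm).trans (by linarith)
  · have hq : 0 ≤ ‖x - y‖ ^ β := Real.rpow_nonneg (norm_nonneg _) _
    rcases lt_or_ge ‖x - y‖ ρ with hlt | hge
    · refine ((h2 u K hK hu x hx).hol x hxm y (by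
        rw [mem_ball, dist_eq_norm, norm_sub_rev]; exact hlt)).trans ?_
      exact mul_le_mul_of_nonneg_right (by linarith) hq
    · have h3 : 1 ≤ ρ ^ (-β) * ‖x - y‖ ^ β := by
        rw [Real.rpow_neg hρ.le, ← div_eq_inv_mul, le_div_iff₀ (Real.rpow_pos_of_pos hρ _), one_mul]
        exact Real.rpow_le_rpow hρ.le hge hβ0.le
      have h4 := (h2 u K hK hu x hx).sup x hxm
      have h5 := (h2 u K hK hu y hy).sup y (mem_ball_self hρ)
      calc ‖D2 u x - D2 u y‖ ≤ ‖D2 u x‖ + ‖D2 u y‖ := norm_sub_le _ _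
        _ ≤ 2 * (C * K) := by linarith
        _ ≤ 2 * (C * K) * (ρ ^ (-β) * ‖x - y‖ ^ β) := le_mul_of_one_le_right (by positivity) h3
        _ = 2 * C * ρ ^ (-β) * K * ‖x - y‖ ^ β := by ring
        _ ≤ _ := mul_le_mul_of_nonneg_right (by linarith) hq

end gen

/-- the operator `B ↦ Re tr (g⁻¹ lev B)` -/
def opA {n : ℕ} (g : Cm n → Matrix (Fin n) (Fin n) ℂ) (z : Cm n) : Bil (Cm n) →L[ℝ] ℝ :=
  ∑ j, ∑ k, Vale.Agent.P272.K.N.coefL j k ((g z)⁻¹ j k)

lemma opA_apply {n : ℕ} (g : Cm n → Matrix (Fin n) (Fin n) ℂ) (z : Cm n) (B : Bil (Cm n)) :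
    opA g z B = ((g z)⁻¹ * Vale.Agent.P272.K.N.lev B).trace.re := by
  simp only [opA, _root_.sum_apply, Vale.Agent.P272.K.N.coefL_apply, Matrix.trace,
    Matrix.diag_apply, Matrix.mul_apply, Complex.re_sum]

lemma lapG_eq_opA {n : ℕ} (g : Cm n → Matrix (Fin n) (Fin n) ℂ) {u : Cm n → ℝ} {z : Cm n}
    (hu : ContDiffAt ℝ 2 u z) : lapG g u z = opA g z (D2 u z) := by
  rw [opA_apply, lapG, Vale.Agent.P272.K.N.cHess_eq_lev
    ((hu.fderiv_right (m := 1) (by norm_num)).differentiableAt (by norm_num))]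

lemma contDiffAt_opA {n : ℕ} {g : Cm n → Matrix (Fin n) (Fin n) ℂ} {z : Cm n}
    (hg : ∀ i j, ContDiffAt ℝ ∞ (fun y => g y i j) z) (hp : (g z).PosDef) :
    ContDiffAt ℝ ∞ (opA g) z := by
  have h1 : ∀ i j, ContDiffAt ℝ ∞ (fun y => (g y)⁻¹ i j) z := fun i j =>
    Vale.Agent.P272.K.contDiffAt_inv hg hp.det_pos.ne' i j
  unfold opA
  exact ContDiffAt.sum fun j _ => ContDiffAt.sum fun k _ =>
    (Vale.Agent.P272.K.N.coefL j k).contDiff.contDiffAt.comp z (h1 j k)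

theorem schauderStatement : SchauderStatement := by
  intro n g p R hR hg μ
  have hsub : ball p R ⊆ closedBall p R := ball_subset_closedBall
  have hcpt : IsCompact (closedBall p (R / 2)) := isCompact_closedBall _ _
  obtain ⟨C, hC, h⟩ := compact_est (E := Cm n) (β := 1 / 2) (by norm_num) (by norm_num)
    (A := opA g) (b := fun _ => 0) (c := fun _ => -μ) isOpen_ball
    (fun x hx => (contDiffAt_opA (hg.smooth x (hsub hx)) (hg.posDef x (hsub hx))).of_le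
      (by exact_mod_cast le_top))
    (fun x _ => contDiffAt_const) (fun x _ => contDiffAt_const)
    (fun x hx ξ hξ => by
      rw [opA_apply]
      exact Vale.Agent.P272.K.N.trace_inv_lev_pos (hg.posDef x (hsub hx)) hξ)
    hcpt (closedBall_subset_ball (by linarith) : closedBall p (R / 2) ⊆ ball p R)
  have aux : ∀ (u : Cm n → ℝ) (K : ℝ), 0 < K →
      (∀ z ∈ ball p R, ContDiffAt ℝ ∞ u z) → (∀ z ∈ ball p R, |u z| ≤ K) →
      (∀ z ∈ ball p R, lapG g u z = μ * u z) →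
      SolOn (opA g) (fun _ => 0) (fun _ => -μ) (ball p R) u K := by
    intro u K hK hu hb heq
    refine ⟨fun x hx => (hu x hx).of_le (WithTop.coe_le_coe.2 le_top), hb, fun x hx => ?_⟩
    have h1 := heq x hx
    rw [lapG_eq_opA g ((hu x hx).of_le (WithTop.coe_le_coe.2 le_top))] at h1
    rw [h1]
    simp
  refine ⟨C, hC, fun u K hu hb heq z hz => ?_⟩
  have hK : 0 ≤ K := (abs_nonneg _).trans (hb p (mem_ball_self hR))
  -- pass to the limit `K + ε`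
  have hlim : ∀ ε : ℝ, 0 < ε → ‖fderiv ℝ u z‖ ≤ C * (K + ε) ∧
      ‖fderiv ℝ (fderiv ℝ u) z‖ ≤ C * (K + ε) ∧ ∀ z' ∈ closedBall p (R / 2),
        ‖fderiv ℝ (fderiv ℝ u) z - fderiv ℝ (fderiv ℝ u) z'‖ ≤
          C * (K + ε) * ‖z - z'‖ ^ (1 / 2 : ℝ) := by
    intro ε hε
    exact h u (K + ε) (by linarith) (aux u (K + ε) (by linarith) hu
      (fun x hx => (hb x hx).trans (by linarith)) heq) z hz
  have hle : ∀ {a q : ℝ}, 0 ≤ q → (∀ ε : ℝ, 0 < ε → a ≤ C * (K + ε) * q) → a ≤ C * K * q := by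
    intro a q hq ha
    refine le_of_forall_pos_le_add fun δ hδ => ?_
    have hp : 0 < C * q + 1 := by positivity
    have := ha (δ / (C * q + 1)) (by positivity)
    refine this.trans ?_
    have e : C * (K + δ / (C * q + 1)) * q = C * K * q + δ * (C * q / (C * q + 1)) := by
      field_simp
    rw [e]
    have : C * q / (C * q + 1) ≤ 1 := by rw [div_le_one hp]; linarith
    nlinarith
  refine ⟨?_, ?_, fun z' hz' => ?_⟩
  · simpa using hle (q := 1) zero_le_one fun ε hε => by simpa using (hlim ε hε).1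
  · simpa using hle (q := 1) zero_le_one fun ε hε => by simpa using (hlim ε hε).2.1
  · exact hle (by positivity) fun ε hε => (hlim ε hε).2.2 z' hz'

end Vale.Agent.P299.D2
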